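import Mathlib

namespace Vale.Agent.P031

open Filter Topology

/-- The set of values of Euler's totient function. -/
def totientValues : Set ℕ := {v | ∃ n : ℕ, 1 ≤ n ∧ Nat.totient n = v}

/-- `V x` is the number of totient values not exceeding `x`. -/
noncomputable def V (x : ℝ) : ℕ := {v : ℕ | v ∈ totientValues ∧ (v : ℝ) ≤ x}.ncard

theorem set_subset (x : ℝ) :
    {v : ℕ | v ∈ totientValues ∧ (v : ℝ) ≤ x} ⊆ ((Finset.Icc 1 ⌊x⌋₊ : Finset ℕ) : Set ℕ) := by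
  rintro v ⟨⟨n, hn, rfl⟩, hv⟩
  rw [Finset.mem_coe, Finset.mem_Icc]
  exact ⟨Nat.totient_pos.2 hn, Nat.le_floor hv⟩

theorem set_finite (x : ℝ) : {v : ℕ | v ∈ totientValues ∧ (v : ℝ) ≤ x}.Finite :=
  (Finset.finite_toSet _).subset (set_subset x)

theorem V_mono {x y : ℝ} (h : x ≤ y) : V x ≤ V y :=
  Set.ncard_le_ncard (fun _ hv => ⟨hv.1, hv.2.trans h⟩) (set_finite y)

theorem V_le_floor (x : ℝ) : V x ≤ ⌊x⌋₊ := by
  have := Set.ncard_le_ncard (set_subset x) (Finset.finite_toSet _)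
  rw [Set.ncard_coe_finset] at this
  simpa [V] using this

theorem V_le {x : ℝ} (hx : 0 ≤ x) : (V x : ℝ) ≤ x :=
  le_trans (by exact_mod_cast V_le_floor x) (Nat.floor_le hx)

theorem V_pos {x : ℝ} (hx : 1 ≤ x) : 0 < V x := by
  rw [V, Set.ncard_pos (set_finite x)]
  exact ⟨1, ⟨1, le_rfl, by simp⟩, by simpa using hx⟩

theorem pi_le_V (x : ℝ) : Nat.primeCounting ⌊x⌋₊ ≤ V x := by
  rw [← Nat.primesLE_card_eq_primeCounting]
  have himg : (((Nat.primesLE ⌊x⌋₊).image (fun p => p - 1) : Finset ℕ) : Set ℕ) ⊆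
      {v : ℕ | v ∈ totientValues ∧ (v : ℝ) ≤ x} := by
    intro v hv
    rw [Finset.mem_coe, Finset.mem_image] at hv
    obtain ⟨p, hp, rfl⟩ := hv
    rw [Nat.mem_primesLE] at hp
    refine ⟨⟨p, hp.2.one_le, Nat.totient_prime hp.2⟩, ?_⟩
    have hx : 0 ≤ x := by
      by_contra h
      have : ⌊x⌋₊ = 0 := Nat.floor_of_nonpos (le_of_not_ge h)
      have := hp.2.pos
      omega
    calc ((p - 1 : ℕ) : ℝ) ≤ (⌊x⌋₊ : ℝ) := by exact_mod_cast (Nat.sub_le _ _).trans hp.1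
      _ ≤ x := Nat.floor_le hx
  have := Set.ncard_le_ncard himg (set_finite x)
  rw [Set.ncard_coe_finset, Finset.card_image_of_injOn] at this
  · exact this
  · intro p hp q hq hpq
    have hp' := (Nat.mem_primesLE.1 hp).2.pos
    have hq' := (Nat.mem_primesLE.1 hq).2.pos
    simp only at hpq
    omega

end Vale.Agent.P031
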