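import Vale.Agent.P031.Basic

namespace Vale.Agent.P031

open Filter Topology

theorem chebyshev_V : ∀ᶠ y : ℝ in atTop, y / (4 * Real.log y) ≤ V y := by
  have h1 : ∀ᶠ z : ℝ in atTop, Real.log z ≤ (1 / 10) * z := by
    have := Real.isLittleO_log_id_atTop.bound (show (0 : ℝ) < 1 / 10 by norm_num)
    filter_upwards [this, eventually_ge_atTop 1] with z hz hz1
    have h0 : 0 ≤ Real.log z := Real.log_nonneg hz1
    simp only [id, Real.norm_eq_abs] at hz
    rwa [abs_of_nonneg h0, abs_of_nonneg (by linarith)] at hz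
  have h2 : ∀ᶠ y : ℝ in atTop, Real.log (y + 2) ≤ (1 / 10) * (y + 2) :=
    (tendsto_atTop_add_const_right _ 2 tendsto_id).eventually h1
  filter_upwards [h2, eventually_ge_atTop 10] with y hy hy10
  have hlog : 0 < Real.log y := Real.log_pos (by linarith)
  have h3 := Chebyshev.pi_ge' (x := y) (by linarith)
  have h4 : (Nat.primeCounting ⌊y⌋₊ : ℝ) ≤ V y := by exact_mod_cast pi_le_V y
  have h5 : (0.6931471803 : ℝ) < Real.log 2 := Real.log_two_gt_d9
  have h6 : y / 4 ≤ (y - 1) * Real.log 2 - Real.log (y + 2) := by nlinarith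
  calc y / (4 * Real.log y) = (y / 4) / Real.log y := by rw [div_div]
    _ ≤ ((y - 1) * Real.log 2 - Real.log (y + 2)) / Real.log y := by gcongr
    _ ≤ _ := h3.trans h4

theorem frequently_lt (c ε : ℝ) (hc : 1 < c) (hε : 0 < ε) :
    ∃ᶠ x : ℝ in atTop, (V (c * x) : ℝ) < (c + ε) * V x := by
  intro hcon
  simp only [not_lt] at hcon
  obtain ⟨X, hX⟩ := (hcon.and (eventually_ge_atTop 1)).exists_forall_of_atTop
  have hX1 : 1 ≤ X := (hX X le_rfl).2
  have hc0 : 0 < c := by linarith
  have hge : ∀ k : ℕ, X ≤ c ^ k * X := by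
    intro k
    have : 1 ≤ c ^ k := one_le_pow₀ hc.le
    nlinarith
  have hind : ∀ k : ℕ, (c + ε) ^ k ≤ V (c ^ k * X) := by
    intro k
    induction k with
    | zero =>
      simp only [pow_zero, one_mul]
      exact_mod_cast V_pos hX1
    | succ k ih =>
      have := (hX (c ^ k * X) (hge k)).1
      calc (c + ε) ^ (k + 1) = (c + ε) * (c + ε) ^ k := by ring
        _ ≤ (c + ε) * V (c ^ k * X) := by gcongr
        _ ≤ V (c * (c ^ k * X)) := this
        _ = V (c ^ (k + 1) * X) := by congr 2; ring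
  have hbd : ∀ k : ℕ, ((c + ε) / c) ^ k ≤ X := by
    intro k
    have h1 := hind k
    have h2 : (V (c ^ k * X) : ℝ) ≤ c ^ k * X := V_le (by positivity)
    rw [div_pow, div_le_iff₀ (by positivity)]
    linarith
  have hr : 1 < (c + ε) / c := by
    rw [one_lt_div hc0]
    linarith
  obtain ⟨k, hk⟩ := ((tendsto_pow_atTop_atTop_of_one_lt hr).eventually (eventually_gt_atTop X)).exists
  exact absurd (hbd k) (not_le.2 hk)

theorem frequently_gt (c ε : ℝ) (hc : 1 < c) (hε : 0 < ε) :
    ∃ᶠ x : ℝ in atTop, (c - ε) * V x < (V (c * x) : ℝ) := by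
  intro hcon
  simp only [not_lt] at hcon
  obtain ⟨X, hX⟩ := (hcon.and (eventually_ge_atTop 1)).exists_forall_of_atTop
  have hX1 : 1 ≤ X := (hX X le_rfl).2
  have hc0 : 0 < c := by linarith
  set q := c - ε with hq
  have hge : ∀ k : ℕ, X ≤ c ^ k * X := by
    intro k
    have : 1 ≤ c ^ k := one_le_pow₀ hc.le
    nlinarith
  have hq0 : 0 < q := by
    have h1 := (hX X le_rfl).1
    have h2 : (0 : ℝ) < V (c * X) := by
      exact_mod_cast V_pos (by nlinarith)
    have h3 : (0 : ℝ) < V X := by exact_mod_cast V_pos hX1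
    by_contra h
    have : q * V X ≤ 0 := mul_nonpos_of_nonpos_of_nonneg (le_of_not_gt h) h3.le
    linarith
  have hind : ∀ k : ℕ, (V (c ^ k * X) : ℝ) ≤ q ^ k * X := by
    intro k
    induction k with
    | zero =>
      simp only [pow_zero, one_mul]
      exact V_le (by linarith)
    | succ k ih =>
      have := (hX (c ^ k * X) (hge k)).1
      calc (V (c ^ (k + 1) * X) : ℝ) = V (c * (c ^ k * X)) := by congr 2; ring
        _ ≤ q * V (c ^ k * X) := this
        _ ≤ q * (q ^ k * X) := by gcongr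
        _ = q ^ (k + 1) * X := by ring
  have htend : Tendsto (fun k : ℕ => c ^ k * X) atTop atTop :=
    (tendsto_pow_atTop_atTop_of_one_lt hc).atTop_mul_const (by linarith)
  have hch := htend.eventually chebyshev_V
  have hr : 1 < c / q := by
    rw [one_lt_div hq0]
    linarith
  have hlim : Tendsto (fun k : ℕ => 4 * Real.log c * ((k : ℝ) ^ 1 / (c / q) ^ k)
      + 4 * Real.log X * ((k : ℝ) ^ 0 / (c / q) ^ k)) atTop (𝓝 (4 * Real.log c * 0 + 4 * Real.log X * 0)) :=
    ((tendsto_pow_const_div_const_pow_of_one_lt 1 hr).const_mul _).add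
      ((tendsto_pow_const_div_const_pow_of_one_lt 0 hr).const_mul _)
  simp only [mul_zero, add_zero] at hlim
  have hlt := hlim.eventually (gt_mem_nhds (show (0 : ℝ) < 1 by norm_num))
  obtain ⟨k, hk1, hk2, hk3⟩ := (hch.and (hlt.and (eventually_ge_atTop 1))).exists
  have hlogpos : 0 < Real.log (c ^ k * X) := by
    apply Real.log_pos
    have : 1 < c ^ k := one_lt_pow₀ hc (by omega)
    nlinarith
  have hlogeq : Real.log (c ^ k * X) = k * Real.log c + Real.log X := by
    rw [Real.log_mul (by positivity) (by linarith), Real.log_pow]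
  have h5 := hk1.trans (hind k)
  rw [div_le_iff₀ (by positivity)] at h5
  have hXpos : 0 < X := by linarith
  have h6 : c ^ k ≤ q ^ k * (4 * Real.log (c ^ k * X)) := by
    have : c ^ k * X ≤ (q ^ k * (4 * Real.log (c ^ k * X))) * X := by linarith
    exact le_of_mul_le_mul_right this hXpos
  have h7 : (1 : ℝ) ≤ 4 * Real.log c * ((k : ℝ) ^ 1 / (c / q) ^ k)
      + 4 * Real.log X * ((k : ℝ) ^ 0 / (c / q) ^ k) := by
    rw [hlogeq] at h6
    have hqk : 0 < q ^ k := by positivity
    have hck : 0 < c ^ k := by positivity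
    rw [div_pow]
    have e : 4 * Real.log c * ((k : ℝ) ^ 1 / (c ^ k / q ^ k)) + 4 * Real.log X * ((k : ℝ) ^ 0 / (c ^ k / q ^ k))
        = (q ^ k * (4 * (k * Real.log c + Real.log X))) / c ^ k := by
      field_simp
    rw [e, le_div_iff₀ hck]
    linarith
  linarith

end Vale.Agent.P031
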