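import Vale.Agent.P031.Growth

namespace Vale.Agent.P031

open Filter Topology

theorem limit_eq (c α : ℝ) (hc : 1 < c)
    (h : Tendsto (fun x : ℝ => (V (c * x) : ℝ) / V x) atTop (𝓝 α)) : α = c := by
  have hVpos : ∀ᶠ x : ℝ in atTop, (0 : ℝ) < V x := by
    filter_upwards [eventually_ge_atTop 1] with x hx
    exact_mod_cast V_pos hx
  rcases lt_trichotomy α c with hlt | heq | hgt
  · exfalso
    have hε : 0 < (c - α) / 2 := by linarith
    have h1 := frequently_gt c ((c - α) / 2) hc hε
    have h2 : ∀ᶠ x : ℝ in atTop, (V (c * x) : ℝ) / V x < c - (c - α) / 2 :=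
      h.eventually (gt_mem_nhds (by linarith))
    obtain ⟨x, hx1, hx2, hx3⟩ := (h1.and_eventually (h2.and hVpos)).exists
    rw [div_lt_iff₀ hx3] at hx2
    linarith
  · exact heq
  · exfalso
    have hε : 0 < (α - c) / 2 := by linarith
    have h1 := frequently_lt c ((α - c) / 2) hc hε
    have h2 : ∀ᶠ x : ℝ in atTop, c + (α - c) / 2 < (V (c * x) : ℝ) / V x :=
      h.eventually (lt_mem_nhds (by linarith))
    obtain ⟨x, hx1, hx2, hx3⟩ := (h1.and_eventually (h2.and hVpos)).exists
    rw [lt_div_iff₀ hx3] at hx2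
    linarith

/-- The exponents `t` for which `V (exp t * x) / V x` tends to `exp t`. -/
def goodScales : AddSubgroup ℝ where
  carrier := {t | Tendsto (fun x : ℝ => (V (Real.exp t * x) : ℝ) / V x) atTop (𝓝 (Real.exp t))}
  zero_mem' := by
    show Tendsto (fun x : ℝ => (V (Real.exp 0 * x) : ℝ) / V x) atTop (𝓝 (Real.exp 0))
    rw [Real.exp_zero]
    apply tendsto_const_nhds.congr'
    filter_upwards [eventually_ge_atTop 1] with x hx
    have : (V x : ℝ) ≠ 0 := by exact_mod_cast (V_pos hx).ne'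
    rw [one_mul, div_self this]
  add_mem' := by
    intro s t hs ht
    show Tendsto (fun x : ℝ => (V (Real.exp (s + t) * x) : ℝ) / V x) atTop (𝓝 (Real.exp (s + t)))
    have hs' : Tendsto (fun x : ℝ => (V (Real.exp s * x) : ℝ) / V x) atTop (𝓝 (Real.exp s)) := hs
    have ht' : Tendsto (fun x : ℝ => (V (Real.exp t * x) : ℝ) / V x) atTop (𝓝 (Real.exp t)) := ht
    have hmul : Tendsto (fun x : ℝ => Real.exp t * x) atTop atTop :=
      tendsto_id.const_mul_atTop (Real.exp_pos t)
    have h1 := (hs'.comp hmul).mul ht'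
    rw [Real.exp_add]
    apply h1.congr'
    filter_upwards [hmul.eventually (eventually_ge_atTop 1)] with x hx
    have : (V (Real.exp t * x) : ℝ) ≠ 0 := by exact_mod_cast (V_pos hx).ne'
    simp only [Function.comp]
    rw [div_mul_div_cancel₀ this, mul_assoc]
  neg_mem' := by
    intro t ht
    show Tendsto (fun x : ℝ => (V (Real.exp (-t) * x) : ℝ) / V x) atTop (𝓝 (Real.exp (-t)))
    have ht' : Tendsto (fun x : ℝ => (V (Real.exp t * x) : ℝ) / V x) atTop (𝓝 (Real.exp t)) := ht
    have hmul : Tendsto (fun x : ℝ => Real.exp (-t) * x) atTop atTop :=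
      tendsto_id.const_mul_atTop (Real.exp_pos (-t))
    have h1 := (ht'.comp hmul).inv₀ (Real.exp_pos t).ne'
    rw [Real.exp_neg]
    apply h1.congr'
    filter_upwards with x
    simp only [Function.comp]
    rw [inv_div, ← mul_assoc, ← Real.exp_neg, ← Real.exp_add]
    simp

theorem mem_goodScales {t : ℝ} : t ∈ goodScales ↔
    Tendsto (fun x : ℝ => (V (Real.exp t * x) : ℝ) / V x) atTop (𝓝 (Real.exp t)) := Iff.rfl

theorem tendsto_of_dense (hd : Dense (goodScales : Set ℝ)) (c : ℝ) (hc : 0 < c) :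
    Tendsto (fun x : ℝ => (V (c * x) : ℝ) / V x) atTop (𝓝 c) := by
  rw [tendsto_order]
  constructor
  · intro a' ha'
    set b := max a' (c / 2) with hb
    have hb0 : 0 < b := lt_of_lt_of_le (by linarith) (le_max_right _ _)
    have hbc : b < c := max_lt ha' (by linarith)
    obtain ⟨t, ht, ht1, ht2⟩ := hd.exists_between (Real.log_lt_log hb0 hbc)
    have h1 : b < Real.exp t := (Real.log_lt_iff_lt_exp hb0).1 ht1
    have h2 : Real.exp t < c := (Real.lt_log_iff_exp_lt hc).1 ht2
    have h3 := (mem_goodScales.1 ht).eventually (lt_mem_nhds h1)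
    filter_upwards [h3, eventually_ge_atTop 0] with x hx hx0
    calc a' ≤ b := le_max_left _ _
      _ < (V (Real.exp t * x) : ℝ) / V x := hx
      _ ≤ (V (c * x) : ℝ) / V x := by
        apply div_le_div_of_nonneg_right _ (Nat.cast_nonneg _)
        exact_mod_cast V_mono (mul_le_mul_of_nonneg_right h2.le hx0)
  · intro a' ha'
    obtain ⟨t, ht, ht1, ht2⟩ := hd.exists_between (Real.log_lt_log hc ha')
    have h1 : c < Real.exp t := (Real.log_lt_iff_lt_exp hc).1 ht1
    have h2 : Real.exp t < a' := (Real.lt_log_iff_exp_lt (hc.trans ha')).1 ht2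
    have h3 := (mem_goodScales.1 ht).eventually (gt_mem_nhds h2)
    filter_upwards [h3, eventually_ge_atTop 0] with x hx hx0
    calc (V (c * x) : ℝ) / V x ≤ (V (Real.exp t * x) : ℝ) / V x := by
          apply div_le_div_of_nonneg_right _ (Nat.cast_nonneg _)
          exact_mod_cast V_mono (mul_le_mul_of_nonneg_right h1.le hx0)
      _ < a' := hx

theorem two_scales (a b : ℝ) (ha : 1 < a) (hb : 1 < b)
    (hab : Irrational (Real.log a / Real.log b)) :
    (∀ c : ℝ, 1 < c → Tendsto (fun x : ℝ => (V (c * x) : ℝ) / V x) atTop (𝓝 c)) ↔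
      ((∃ α : ℝ, Tendsto (fun x : ℝ => (V (a * x) : ℝ) / V x) atTop (𝓝 α)) ∧
       (∃ β : ℝ, Tendsto (fun x : ℝ => (V (b * x) : ℝ) / V x) atTop (𝓝 β))) := by
  constructor
  · intro h
    exact ⟨⟨a, h a ha⟩, ⟨b, h b hb⟩⟩
  · rintro ⟨⟨α, hα⟩, ⟨β, hβ⟩⟩ c hc
    have e1 := limit_eq a α ha hα
    have e2 := limit_eq b β hb hβ
    subst e1
    subst e2
    have m1 : Real.log α ∈ goodScales := by
      rw [mem_goodScales, Real.exp_log (by linarith)]
      exact hα
    have m2 : Real.log β ∈ goodScales := by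
      rw [mem_goodScales, Real.exp_log (by linarith)]
      exact hβ
    have hle : AddSubgroup.closure {Real.log α, Real.log β} ≤ goodScales := by
      rw [AddSubgroup.closure_le]
      intro t ht
      rcases ht with rfl | rfl
      · exact m1
      · exact m2
    have hd : Dense (goodScales : Set ℝ) :=
      (dense_addSubgroupClosure_pair_iff.2 hab).mono hle
    exact tendsto_of_dense hd c (by linarith)

theorem irrational_log_two_div_log_three : Irrational (Real.log 2 / Real.log 3) := by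
  rintro ⟨r, hr⟩
  have h2 : 0 < Real.log 2 := Real.log_pos (by norm_num)
  have h3 : 0 < Real.log 3 := Real.log_pos (by norm_num)
  have hrpos : (0 : ℝ) < r := by rw [hr]; positivity
  have hrpos' : 0 < r := by exact_mod_cast hrpos
  have hnum : 0 < r.num := Rat.num_pos.2 hrpos'
  obtain ⟨p, hp⟩ := Int.eq_ofNat_of_zero_le hnum.le
  have hp0 : 0 < p := by omega
  have hden : 0 < r.den := r.den_pos
  have e : (r : ℝ) = (p : ℝ) / (r.den : ℝ) := by
    have := Rat.cast_def (K := ℝ) r
    rw [this, hp]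
    simp
  rw [e, div_eq_div_iff (by positivity) h3.ne'] at hr
  have e2 : Real.log ((3 : ℝ) ^ p) = Real.log ((2 : ℝ) ^ r.den) := by
    rw [Real.log_pow, Real.log_pow]
    linarith
  have e3 : (3 : ℝ) ^ p = (2 : ℝ) ^ r.den :=
    Real.log_injOn_pos (Set.mem_Ioi.2 (by positivity)) (Set.mem_Ioi.2 (by positivity)) e2
  have e4 : 3 ^ p = 2 ^ r.den := by exact_mod_cast e3
  have h5 : Odd (3 ^ p) := Odd.pow (by decide)
  have h6 : Even (2 ^ r.den) := (Nat.even_pow.2 ⟨by decide, hden.ne'⟩)
  rw [e4] at h5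
  exact (Nat.not_even_iff_odd.2 h5) h6

end Vale.Agent.P031
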